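import Vale.Agent.P182.H158.FewLin
import Vale.Agent.P182.H55.NullG
import Vale.Agent.P182.H62.NullGlue
import Vale.Agent.P182.H258.RealR

/-!
# The null case with few columns

In the null case with at least two eigenvalues every arm has at least two columns; if moreover
the stable image has a nonzero radical, some arm has at least three columns.
-/

namespace Vale.Agent.P182.H158

open Module Matrix Vale.Agent.P182.H533 Vale.Agent.P182.B1 Vale.Agent.P182.H578
  Vale.Agent.P182.H922

universe u v w

section cfg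

variable {L : Type u} {V : Type v} {J : Type w} [Field L] [AddCommGroup V] [Module L V]
  [FiniteDimensional L V] [Fintype J] [DecidableEq J] {𝒟 : Cfg L V J}

/-- the rank of a residue is at most twice the number of columns of the arm -/
theorem rank_Res_le (hG : 𝒟.Good) (t : J → V) (s : Fin 3) :
    finrank L (LinearMap.range (Res 𝒟 t s)) ≤
      2 * (Finset.univ.filter fun l => 𝒟.arm l = s).card := by
  classical
  set A : Finset V := (Finset.univ.filter fun l => 𝒟.arm l = s).image t ∪
    (Finset.univ.filter fun l => 𝒟.arm l = s).image (𝒟.om t) with hA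
  have h1 : LinearMap.range (Res 𝒟 t s) ≤ Submodule.span L (A : Set V) := by
    rintro _ ⟨v, rfl⟩
    rw [Res_apply 𝒟 hG.skew]
    refine Submodule.sum_mem _ fun l hl => ?_
    refine Submodule.add_mem _ (Submodule.smul_mem _ _ (Submodule.subset_span ?_))
      (Submodule.smul_mem _ _ (Submodule.subset_span ?_))
    · rw [hA, Finset.coe_union]
      exact Or.inl (Finset.mem_coe.mpr (Finset.mem_image_of_mem _ hl))
    · rw [hA, Finset.coe_union]
      exact Or.inr (Finset.mem_coe.mpr (Finset.mem_image_of_mem _ hl))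
  calc finrank L (LinearMap.range (Res 𝒟 t s)) ≤ finrank L (Submodule.span L (A : Set V)) :=
        Submodule.finrank_mono h1
    _ ≤ A.card := finrank_span_finset_le_card A
    _ ≤ _ := by
      refine (Finset.card_union_le _ _).trans ?_
      have h2 := Finset.card_image_le (s := Finset.univ.filter fun l => 𝒟.arm l = s) (f := t)
      have h3 := Finset.card_image_le (s := Finset.univ.filter fun l => 𝒟.arm l = s)
        (f := 𝒟.om t)
      omega

/-- **few columns**: the glued null case needs seven columns -/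
theorem seven_le [IsAlgClosed L] (hG : 𝒟.Good) {t : J → V} (C : Core 𝒟.q (Res 𝒟 t))
    {D : End L C.V1} (hDc : ∀ s, C.S1 hG.form s * D = D * C.S1 hG.form s)
    (he : ∃ a b : L, a ≠ b ∧ D.HasEigenvalue a ∧ D.HasEigenvalue b)
    (hN : NullCore C hG.form) :
    (∀ s, 2 ≤ (Finset.univ.filter fun l => 𝒟.arm l = s).card) ∧
      (C.I ≠ ⊥ → ∃ s, 3 ≤ (Finset.univ.filter fun l => 𝒟.arm l = s).card) := by
  have hq := hG.form
  have hS : ∀ s, IsSA 𝒟.q (Res 𝒟 t s) := fun s => Sop_SA 𝒟.arm hq (Tt L t) hG.skew s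
  obtain ⟨a, b, hab, ha, hb⟩ := he
  -- the two stable summands
  set A : Submodule L C.V1 := D.maxGenEigenspace a with hA
  set B : Submodule L C.V1 := ⨆ μ ∈ {μ : L | μ ≠ a}, D.maxGenEigenspace μ with hB
  have hind := Module.End.independent_maxGenEigenspace D
  have htop := Module.End.iSup_maxGenEigenspace_eq_top D
  have hAB : IsCompl A B := by
    constructor
    · exact hind a
    · rw [codisjoint_iff, eq_top_iff, ← htop]
      refine iSup_le fun μ => ?_
      by_cases h : μ = a
      · rw [h]; exact le_sup_left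
      · exact le_trans (le_iSup₂_of_le μ h le_rfl) le_sup_right
  have hcomm : ∀ s, Commute D (C.S1 hq s) := fun s => (hDc s).symm
  have hAS : ∀ s, ∀ v ∈ A, C.S1 hq s v ∈ A := fun s v hv =>
    Module.End.mapsTo_maxGenEigenspace_of_comm (hcomm s) a hv
  have hBS : ∀ s, ∀ v ∈ B, C.S1 hq s v ∈ B := by
    intro s v hv
    have h1 : B ≤ B.comap (C.S1 hq s) := by
      refine iSup₂_le fun μ hμ => ?_
      intro x hx
      exact (le_iSup₂_of_le (f := fun μ (_ : μ ∈ {μ : L | μ ≠ a}) => D.maxGenEigenspace μ)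
        μ hμ le_rfl) (Module.End.mapsTo_maxGenEigenspace_of_comm (hcomm s) μ hx)
    exact h1 hv
  have hne : ∀ μ, D.HasEigenvalue μ → D.maxGenEigenspace μ ≠ ⊥ := by
    intro μ hμ h
    apply hμ
    rw [eq_bot_iff, ← h]
    exact Module.End.eigenspace_le_maxGenEigenspace
  have hA0 : A ≠ ⊥ := hne a ha
  have hB0 : B ≠ ⊥ := by
    intro h
    apply hne b hb
    rw [eq_bot_iff, ← h]
    exact le_iSup₂_of_le (f := fun μ (_ : μ ∈ {μ : L | μ ≠ a}) => D.maxGenEigenspace μ)
      b hab.symm le_rfl
  have hN' := hN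
  obtain ⟨p, hp, hk, hs⟩ := hN
  have h4 : ∀ s, 4 ≤ finrank L (LinearMap.range (C.S1 hq s)) := fun s =>
    four_le_rank hp hk hs hAS hBS hAB hA0 hB0 s
  have h5 : ∀ s, finrank L (LinearMap.range (C.S1 hq s)) ≤
      finrank L (LinearMap.range (Res 𝒟 t s)) := by
    intro s
    have h1 := rank_S1_add hq hS C s
    have h2 : finrank L (C.W.map (Res 𝒟 t s)) ≤ finrank L (LinearMap.range (Res 𝒟 t s)) :=
      Submodule.finrank_mono (by rintro _ ⟨x, -, rfl⟩; exact ⟨x, rfl⟩)
    omega
  refine ⟨fun s => ?_, fun hI => ?_⟩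
  · have h1 := h4 s
    have h2 := h5 s
    have h3 := rank_Res_le hG t s
    omega
  · have h0 : ∑ s, Res 𝒟 t s = 0 := by
      refine LinearMap.ext fun v => ?_
      have h6 : ∀ s, Res 𝒟 t s v = Tt L t (Gm 𝒟.arm 𝒟.Ω s *ᵥ ad 𝒟.q (Tt L t) v) := fun s => rfl
      rw [LinearMap.sum_apply, LinearMap.zero_apply]
      simp only [h6]
      rw [← map_sum, ← Matrix.sum_mulVec, Gm_sum, Matrix.zero_mulVec, map_zero]
    obtain ⟨s, hs'⟩ := exists_glue hq hS h0 C hN' hI
    have h1 := h4 s
    have h2 := rank_glue hq hS C hs'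
    have h3 := rank_Res_le hG t s
    exact ⟨s, by omega⟩

end cfg

/-- **The null case does not occur with at most six columns.** -/
theorem hypNull4_few (L : Type u) {J : Type w} [Field L] [Fintype J] [DecidableEq J]
    [IsAlgClosed L] [CharZero L] (h6 : Fintype.card J ≤ 6) : HypNull4.{u, v, w} L J := by
  intro V _ _ _ 𝒟 h t ht hm C _ t' ht' D hDs hD1 hD2 he hN
  by_cases hI : C.I = ⊥
  · exact H55.not_null_honest h ht hm C hI ht' hDs hD1 hD2 he hN
  · obtain ⟨h1, h2⟩ := seven_le h.good C (fun s => by rw [← hD1, ← hD2]) he hN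
    obtain ⟨s, hs⟩ := h2 hI
    have h3 : Fintype.card J = ∑ s, (Finset.univ.filter fun l => 𝒟.arm l = s).card := by
      rw [← Finset.card_univ]
      exact Finset.card_eq_sum_card_fiberwise fun _ _ => Finset.mem_coe.mpr (Finset.mem_univ _)
    rw [Fin.sum_univ_three] at h3
    have a0 := h1 0
    have a1 := h1 1
    have a2 := h1 2
    fin_cases s <;> simp at hs <;> omega

end Vale.Agent.P182.H158
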