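import Vale.Agent.P182.H922.Dicho

/-!
# The null core with few columns: linear algebra
-/

namespace Vale.Agent.P182.H158

open Module Vale.Agent.P182.H533 Vale.Agent.P182.H922

section lin

variable {L V : Type*} [Field L] [AddCommGroup V] [Module L V] [FiniteDimensional L V]

/-- a nilpotent endomorphism of index `≤ p` on a stable subspace -/
theorem finrank_le_mul_ker (N : End L V) {A : Submodule L V} (hA : ∀ v ∈ A, N v ∈ A) {p : ℕ}
    (hp : N ^ p = 0) :
    finrank L A ≤ p * finrank L (LinearMap.ker N ⊓ A : Submodule L V) := by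
  have key : ∀ j, finrank L (LinearMap.ker (N ^ j) ⊓ A : Submodule L V) ≤
      j * finrank L (LinearMap.ker N ⊓ A : Submodule L V) := by
    intro j
    induction j with
    | zero =>
      have : LinearMap.ker (N ^ 0) ⊓ A = ⊥ := by
        rw [pow_zero, Module.End.one_eq_id, LinearMap.ker_id, bot_inf_eq]
      rw [this, finrank_bot]; omega
    | succ j ih =>
      set B : Submodule L V := LinearMap.ker (N ^ (j + 1)) ⊓ A with hB
      let f : B →ₗ[L] V := N.domRestrict B
      have h1 := LinearMap.finrank_range_add_finrank_ker f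
      have h2 : finrank L (LinearMap.range f) ≤
          finrank L (LinearMap.ker (N ^ j) ⊓ A : Submodule L V) := by
        apply Submodule.finrank_mono
        rintro _ ⟨x, rfl⟩
        refine ⟨?_, hA _ x.2.2⟩
        have h0 : (N ^ (j + 1)) (x : V) = 0 := x.2.1
        rw [pow_succ, Module.End.mul_apply] at h0
        exact h0
      have h3 : finrank L (LinearMap.ker f) ≤
          finrank L (LinearMap.ker N ⊓ A : Submodule L V) := by
        have : (LinearMap.ker f).map B.subtype ≤ LinearMap.ker N ⊓ A := by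
          rintro _ ⟨x, hx, rfl⟩
          exact ⟨hx, x.2.2⟩
        have h4 := Submodule.finrank_mono this
        rwa [← (Submodule.equivMapOfInjective B.subtype B.injective_subtype
          (LinearMap.ker f)).finrank_eq] at h4
      calc finrank L B = finrank L (LinearMap.range f) + finrank L (LinearMap.ker f) := h1.symm
        _ ≤ j * finrank L (LinearMap.ker N ⊓ A : Submodule L V) +
            finrank L (LinearMap.ker N ⊓ A : Submodule L V) := add_le_add (h2.trans ih) h3
        _ = _ := by ring
  have h := key p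
  rw [hp, LinearMap.ker_zero, top_inf_eq] at h
  exact h

/-- **two stable summands of a null triple**: all ranks are at least four -/
theorem four_le_rank {S : Fin 3 → End L V} {p : Fin 3 → ℕ} (hp : ∀ s, S s ^ p s = 0)
    (hk : ∀ s, finrank L V = p s * finrank L (LinearMap.ker (S s)))
    (hs : ∑ s, finrank L (LinearMap.ker (S s)) = finrank L V)
    {A B : Submodule L V} (hA : ∀ s, ∀ v ∈ A, S s v ∈ A) (hB : ∀ s, ∀ v ∈ B, S s v ∈ B)
    (hAB : IsCompl A B) (hA0 : A ≠ ⊥) (hB0 : B ≠ ⊥) (s : Fin 3) :
    4 ≤ finrank L (LinearMap.range (S s)) := by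
  have hsum := Submodule.finrank_add_eq_of_isCompl hAB
  have ha0 : 0 < finrank L A := Nat.pos_of_ne_zero fun h => hA0 (Submodule.finrank_eq_zero.mp h)
  have hb0 : 0 < finrank L B := Nat.pos_of_ne_zero fun h => hB0 (Submodule.finrank_eq_zero.mp h)
  -- kernels
  set α : Fin 3 → ℕ := fun s => finrank L (LinearMap.ker (S s) ⊓ A : Submodule L V) with hα
  set β : Fin 3 → ℕ := fun s => finrank L (LinearMap.ker (S s) ⊓ B : Submodule L V) with hβ
  have hker : ∀ s, α s + β s ≤ finrank L (LinearMap.ker (S s)) := by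
    intro s
    have h1 := Submodule.finrank_sup_add_finrank_inf_eq (LinearMap.ker (S s) ⊓ A)
      (LinearMap.ker (S s) ⊓ B)
    have h2 : (LinearMap.ker (S s) ⊓ A) ⊓ (LinearMap.ker (S s) ⊓ B) = ⊥ := by
      rw [eq_bot_iff, ← hAB.inf_eq_bot]
      exact inf_le_inf inf_le_right inf_le_right
    rw [h2, finrank_bot] at h1
    have h3 : finrank L ((LinearMap.ker (S s) ⊓ A) ⊔ (LinearMap.ker (S s) ⊓ B) : Submodule L V) ≤
        finrank L (LinearMap.ker (S s)) :=
      Submodule.finrank_mono (sup_le inf_le_left inf_le_left)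
    show finrank L (LinearMap.ker (S s) ⊓ A : Submodule L V) +
      finrank L (LinearMap.ker (S s) ⊓ B : Submodule L V) ≤ _
    omega
  have hAp : ∀ s, finrank L A ≤ p s * α s := fun s => finrank_le_mul_ker (S s) (hA s) (hp s)
  have hBp : ∀ s, finrank L B ≤ p s * β s := fun s => finrank_le_mul_ker (S s) (hB s) (hp s)
  have hp0 : ∀ s, 0 < p s := by
    intro s
    rcases Nat.eq_zero_or_pos (p s) with h | h
    · have := hAp s
      rw [h, zero_mul] at this
      omega
    · exact h
  have heq : ∀ s, finrank L A = p s * α s ∧ finrank L B = p s * β s ∧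
      finrank L (LinearMap.ker (S s)) = α s + β s := by
    intro s
    have h1 := hAp s
    have h2 := hBp s
    have h3 := hk s
    have h4 : p s * (α s + β s) ≤ p s * finrank L (LinearMap.ker (S s)) :=
      Nat.mul_le_mul_left _ (hker s)
    rw [mul_add] at h4
    have h5 : p s * α s + p s * β s = p s * finrank L (LinearMap.ker (S s)) := by omega
    refine ⟨by omega, by omega, ?_⟩
    rw [← mul_add] at h5
    exact (Nat.eq_of_mul_eq_mul_left (hp0 s) h5).symm
  -- `∑ α = dim A`
  have hv : finrank L V = finrank L A + finrank L B := hsum.symm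
  have hαs : ∑ s, α s = finrank L A := by
    have h1 : ∀ s, finrank L A * finrank L (LinearMap.ker (S s)) = finrank L V * α s := by
      intro s
      conv_lhs => rw [(heq s).1]
      rw [hk s]
      ring
    have h2 : finrank L A * finrank L V = finrank L V * ∑ s, α s := by
      rw [← hs, Finset.mul_sum, hs, Finset.mul_sum]
      exact Finset.sum_congr rfl fun s _ => h1 s
    have h3 : 0 < finrank L V := by omega
    rw [mul_comm] at h2
    exact (Nat.eq_of_mul_eq_mul_left h3 h2).symm
  have hβs : ∑ s, β s = finrank L B := by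
    have h1 : ∑ s, finrank L (LinearMap.ker (S s)) = ∑ s, α s + ∑ s, β s := by
      rw [← Finset.sum_add_distrib]
      exact Finset.sum_congr rfl fun s _ => (heq s).2.2
    omega
  have hα1 : ∀ s, 1 ≤ α s := by
    intro s
    rcases Nat.eq_zero_or_pos (α s) with h | h
    · have := hAp s
      rw [h, mul_zero] at this
      omega
    · exact h
  have hβ1 : ∀ s, 1 ≤ β s := by
    intro s
    rcases Nat.eq_zero_or_pos (β s) with h | h
    · have := hBp s
      rw [h, mul_zero] at this
      omega
    · exact h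
  have hr := LinearMap.finrank_range_add_finrank_ker (S s)
  have h6 := (heq s).2.2
  have hA2 : α s + 2 ≤ finrank L A := by
    rw [← hαs, Fin.sum_univ_three]
    have a0 := hα1 0
    have a1 := hα1 1
    have a2 := hα1 2
    fin_cases s <;> simp <;> omega
  have hB2 : β s + 2 ≤ finrank L B := by
    rw [← hβs, Fin.sum_univ_three]
    have a0 := hβ1 0
    have a1 := hβ1 1
    have a2 := hβ1 2
    fin_cases s <;> simp <;> omega
  omega

end lin

section core

variable {L V : Type*} [Field L] [AddCommGroup V] [Module L V] [FiniteDimensional L V]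
  {q : V →ₗ[L] V →ₗ[L] L} {S : Fin 3 → End L V}

/-- the images of the stable space cover the images on the core -/
theorem rank_S1_add (hq : IsForm q) (hS : ∀ s, IsSA q (S s)) (C : Core q S) (s : Fin 3) :
    finrank L (LinearMap.range (C.S1 hq s)) + finrank L (C.W.map (S s) ⊓ C.I : Submodule L V) =
      finrank L (C.W.map (S s)) := by
  set B : Submodule L V := C.W.map (S s) with hB
  have hBW : B ≤ C.W := by
    rintro _ ⟨w, hw, rfl⟩
    exact C.map_W hw
  let f : B →ₗ[L] C.V1 := (C.P hq).domRestrict B
  have h1 := LinearMap.finrank_range_add_finrank_ker f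
  have h2 : LinearMap.range f = LinearMap.range (C.S1 hq s) := by
    apply le_antisymm
    · rintro _ ⟨⟨_, w, hw, rfl⟩, rfl⟩
      exact ⟨C.P hq w, (C.P_S hq hS s (C.W_le_perp hq hw)).symm⟩
    · rintro _ ⟨v, rfl⟩
      exact ⟨⟨S s v, Submodule.mem_map_of_mem (C.V1_le v.2)⟩, rfl⟩
  have h3 : finrank L (LinearMap.ker f) = finrank L (B ⊓ C.I : Submodule L V) := by
    have h4 : (LinearMap.ker f).map B.subtype = B ⊓ C.I := by
      apply le_antisymm
      · rintro _ ⟨x, hx, rfl⟩
        refine ⟨x.2, ?_⟩
        have h5 : C.P hq (x : V) = 0 := hx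
        have h6 := C.sub_P_mem_I hq (hBW x.2)
        rw [h5, Submodule.coe_zero, sub_zero] at h6
        exact h6
      · rintro x ⟨hx, hi⟩
        exact ⟨⟨x, hx⟩, C.P_eq_zero hq (C.I_le_perp hi), rfl⟩
    rw [← h4]
    exact (Submodule.equivMapOfInjective B.subtype B.injective_subtype
      (LinearMap.ker f)).finrank_eq
  rw [← h2, ← h3]
  exact h1

/-- **the glue**: if the radical is nonzero, one residue reaches it -/
theorem exists_glue (hq : IsForm q) (hS : ∀ s, IsSA q (S s)) (h0 : ∑ s, S s = 0) (C : Core q S)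
    (hN : NullCore C hq) (hI : C.I ≠ ⊥) : ∃ s, C.W.map (S s) ⊓ C.I ≠ ⊥ := by
  by_contra hcon
  push Not at hcon
  obtain ⟨p, -, -, hk⟩ := hN
  have hr : ∀ s, finrank L (LinearMap.range (C.S1 hq s)) = finrank L (C.W.map (S s)) := by
    intro s
    have h1 := rank_S1_add hq hS C s
    rw [hcon s, finrank_bot] at h1
    omega
  have hrk : ∀ s, finrank L (LinearMap.range (C.S1 hq s)) +
      finrank L (LinearMap.ker (C.S1 hq s)) = finrank L C.V1 := fun s =>
    LinearMap.finrank_range_add_finrank_ker _
  have hW : finrank L C.W = finrank L C.V1 + finrank L C.I := by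
    have h1 := Submodule.finrank_sup_add_finrank_inf_eq C.V1 (C.W ⊓ perp q C.W)
    rw [C.sup, C.disj, finrank_bot, add_zero] at h1
    exact h1
  have hsv : ∀ v, S 0 v + S 1 v + S 2 v = 0 := by
    intro v
    have := LinearMap.congr_fun h0 v
    rwa [LinearMap.sum_apply, Fin.sum_univ_three] at this
  -- `W = S₀ W + S₁ W`
  have h01 : C.W ≤ C.W.map (S 0) ⊔ C.W.map (S 1) := by
    conv_lhs => rw [← C.hW]
    refine iSup_le fun s => ?_
    fin_cases s
    · exact le_sup_left
    · exact le_sup_right
    · rintro _ ⟨w, hw, rfl⟩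
      have h2 : S 2 w = S 0 (-w) + S 1 (-w) := by
        rw [map_neg, map_neg, ← neg_add]
        exact eq_neg_of_add_eq_zero_right (hsv w)
      show S 2 w ∈ _
      rw [h2]
      exact Submodule.add_mem_sup (Submodule.mem_map_of_mem (Submodule.neg_mem _ hw))
        (Submodule.mem_map_of_mem (Submodule.neg_mem _ hw))
  have h2 := Submodule.finrank_sup_add_finrank_inf_eq (C.W.map (S 0)) (C.W.map (S 1))
  have h3 := Submodule.finrank_mono h01
  -- the kernel of `S₂` on `W`
  set K2 : Submodule L V := LinearMap.ker (S 2) ⊓ C.W with hK2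
  let g : K2 →ₗ[L] V := (S 0).domRestrict K2
  have h4 := LinearMap.finrank_range_add_finrank_ker g
  have h5 : LinearMap.range g ≤ C.W.map (S 0) ⊓ C.W.map (S 1) := by
    rintro _ ⟨x, rfl⟩
    refine ⟨Submodule.mem_map_of_mem x.2.2, ?_⟩
    have h6 : S 2 (x : V) = 0 := x.2.1
    have h7 : S 0 (x : V) = S 1 (-(x : V)) := by
      have := hsv (x : V)
      rw [h6, add_zero] at this
      rw [map_neg]
      exact eq_neg_of_add_eq_zero_left this
    show S 0 (x : V) ∈ _
    rw [h7]
    exact Submodule.mem_map_of_mem (Submodule.neg_mem _ x.2.2)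
  have h6 := Submodule.finrank_mono h5
  have h7 : (LinearMap.ker g).map K2.subtype ≤ C.I := by
    rintro _ ⟨x, hx, rfl⟩
    have e0 : S 0 (x : V) = 0 := hx
    have e2 : S 2 (x : V) = 0 := x.2.1
    have e1 : S 1 (x : V) = 0 := by
      have := hsv (x : V)
      rwa [e0, e2, zero_add, add_zero] at this
    have e : ∀ s, C.S1 hq s (C.P hq (x : V)) = 0 := by
      intro s
      rw [← C.P_S hq hS s (C.W_le_perp hq x.2.2)]
      fin_cases s
      · exact (congrArg _ e0).trans (map_zero _)
      · exact (congrArg _ e1).trans (map_zero _)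
      · exact (congrArg _ e2).trans (map_zero _)
    have hP : C.P hq (x : V) = 0 := by
      refine (C.isForm hq).nondeg _ fun y => ?_
      have hy : y ∈ ⨆ s, LinearMap.range (C.S1 hq s) := by rw [C.S1_span hq hS]; trivial
      refine Submodule.iSup_induction (fun s => LinearMap.range (C.S1 hq s))
        (motive := fun y => C.q1 (C.P hq (x : V)) y = 0) hy ?_ ?_ ?_
      · rintro s _ ⟨z, rfl⟩
        rw [← C.S1_SA hq hS s, e s, map_zero, LinearMap.zero_apply]
      · exact map_zero _
      · intro a b ha hb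
        rw [map_add, ha, hb, add_zero]
    have h8 := C.sub_P_mem_I hq x.2.2
    rw [hP, Submodule.coe_zero, sub_zero] at h8
    exact h8
  have h8 := Submodule.finrank_mono h7
  rw [← (Submodule.equivMapOfInjective K2.subtype K2.injective_subtype
    (LinearMap.ker g)).finrank_eq] at h8
  have h9 : finrank L (C.W.map (S 2)) + finrank L K2 = finrank L C.W := by
    let f : C.W →ₗ[L] V := (S 2).domRestrict C.W
    have e1 := LinearMap.finrank_range_add_finrank_ker f
    have e2 : LinearMap.range f = C.W.map (S 2) := by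
      rw [LinearMap.range_domRestrict]
    have e3 : (LinearMap.ker f).map C.W.subtype = K2 := by
      apply le_antisymm
      · rintro _ ⟨x, hx, rfl⟩
        exact ⟨hx, x.2⟩
      · rintro x ⟨hx, hw⟩
        exact ⟨⟨x, hw⟩, hx, rfl⟩
    rw [← e2, ← e3, ← (Submodule.equivMapOfInjective C.W.subtype C.W.injective_subtype
      (LinearMap.ker f)).finrank_eq]
    exact e1
  have hI0 : 0 < finrank L C.I := Nat.pos_of_ne_zero fun h => hI (Submodule.finrank_eq_zero.mp h)
  have r0 := hr 0
  have r1 := hr 1
  have r2 := hr 2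
  have k0 := hrk 0
  have k1 := hrk 1
  have k2 := hrk 2
  rw [Fin.sum_univ_three] at hk
  omega

/-- the rank on `V` of a glued residue -/
theorem rank_glue (hq : IsForm q) (hS : ∀ s, IsSA q (S s)) (C : Core q S) {s : Fin 3}
    (h : C.W.map (S s) ⊓ C.I ≠ ⊥) :
    finrank L (LinearMap.range (C.S1 hq s)) + 2 ≤ finrank L (LinearMap.range (S s)) := by
  have h1 := rank_S1_add hq hS C s
  have h2 : 0 < finrank L (C.W.map (S s) ⊓ C.I : Submodule L V) :=
    Nat.pos_of_ne_zero fun h' => h (Submodule.finrank_eq_zero.mp h')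
  obtain ⟨i, ⟨⟨w, hw, rfl⟩, hi⟩, hi0⟩ := Submodule.exists_mem_ne_zero_of_ne_bot h
  obtain ⟨v, hv⟩ : ∃ v, q (S s w) v ≠ 0 := by
    by_contra hcon
    push Not at hcon
    exact hi0 (hq.nondeg _ hcon)
  have h3 : C.W.map (S s) < LinearMap.range (S s) := by
    refine lt_of_le_of_ne ?_ ?_
    · rintro _ ⟨x, -, rfl⟩
      exact ⟨x, rfl⟩
    · intro he
      have h4 : S s v ∈ C.W.map (S s) := by rw [he]; exact ⟨v, rfl⟩
      obtain ⟨x, hx, hxv⟩ := h4
      apply hv
      rw [hS s, ← hxv, ← hS s]
      rw [hq.symm]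
      exact C.I_ortho_W hq hi hx
  have h4 := Submodule.finrank_lt_finrank_of_lt h3
  omega

end core

end Vale.Agent.P182.H158
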