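import Vale.Agent.P182.H158.Few
import Vale.Agent.P182.H588.Int

/-!
# Saturation for weights with few columns
-/

namespace Vale.Agent.P182.H158

open Module Matrix TensorProduct LieAlgebra.Orthogonal Vale.Agent.P182 Vale.Agent.P182.H533
open Vale.Agent.P182.H62 Vale.Agent.P182.B1 Vale.Agent.P182.H588

attribute [local instance 100] LieRing.ofAssociativeRing

universe u

/-- **No critical configuration with at most six columns.** -/
theorem hypT_few {J : Type u} [Fintype J] (h6 : Fintype.card J ≤ 6) : HypT.{u, u} J :=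
  hypT_of_null (fun L _ _ _ _ => hypNull4_few L h6) fun L _ _ _ _ => H258.hypGenT L J

variable {n : ℕ}

theorem ncol_eq (hn : 2 ≤ n) {lam : Fin n → ℤ} (hl : DomZ lam) :
    (ncol lam : ℤ) = lam ⟨0, by omega⟩ := by
  have h0 : 0 ≤ lam ⟨0, by omega⟩ :=
    (abs_nonneg _).trans (hl ⟨0, by omega⟩ ⟨1, by omega⟩ (by simp [Fin.lt_def]))
  have h1 : ncol lam = (lam ⟨0, by omega⟩).natAbs := by
    apply le_antisymm
    · refine Finset.sup_le fun j _ => ?_
      rcases eq_or_ne j ⟨0, by omega⟩ with h | h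
      · rw [h]
      · have hlt : (⟨0, by omega⟩ : Fin n) < j := by
          rw [Fin.lt_def]
          rcases Nat.eq_zero_or_pos j.1 with h' | h'
          · exact absurd (Fin.ext h') h
          · exact h'
        have h2 := hl _ _ hlt
        rw [Int.abs_eq_natAbs] at h2
        omega
    · exact Finset.le_sup (f := fun i => (lam i).natAbs) (Finset.mem_univ _)
  rw [h1]
  omega

/-- **Saturation for integral weights with at most six columns.** -/
theorem hasInvariants_few (hn : 2 ≤ n) {lam : Fin 3 → Fin n → ℤ}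
    (hl : ∀ s, DomZ (lam s)) (he : Even (∑ i, (lam 0 i + lam 1 i + lam 2 i)))
    (h6 : lam 0 ⟨0, by omega⟩ + lam 1 ⟨0, by omega⟩ + lam 2 ⟨0, by omega⟩ ≤ 6)
    {N : ℕ} (hN : 0 < N)
    {V₀ V₁ V₂ W₀ W₁ W₂ : Type*} [AddCommGroup V₀] [Module ℂ V₀]
    [LieRingModule (so n) V₀] [LieModule ℂ (so n) V₀] [AddCommGroup V₁] [Module ℂ V₁]
    [LieRingModule (so n) V₁] [LieModule ℂ (so n) V₁] [AddCommGroup V₂] [Module ℂ V₂]
    [LieRingModule (so n) V₂] [LieModule ℂ (so n) V₂] [AddCommGroup W₀] [Module ℂ W₀]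
    [LieRingModule (so n) W₀] [LieModule ℂ (so n) W₀] [AddCommGroup W₁] [Module ℂ W₁]
    [LieRingModule (so n) W₁] [LieModule ℂ (so n) W₁] [AddCommGroup W₂] [Module ℂ W₂]
    [LieRingModule (so n) W₂] [LieModule ℂ (so n) W₂]
    [LieModule.IsIrreducible ℂ (so n) V₀] [LieModule.IsIrreducible ℂ (so n) V₁]
    [LieModule.IsIrreducible ℂ (so n) V₂] [LieModule.IsIrreducible ℂ (so n) W₀]
    [LieModule.IsIrreducible ℂ (so n) W₁] [LieModule.IsIrreducible ℂ (so n) W₂]
    (v₀ : HasHighestWeight (fun i => (lam 0 i : ℚ)) V₀)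
    (v₁ : HasHighestWeight (fun i => (lam 1 i : ℚ)) V₁)
    (v₂ : HasHighestWeight (fun i => (lam 2 i : ℚ)) V₂)
    (w₀ : HasHighestWeight (fun i => ((N : ℤ) * lam 0 i : ℤ)) W₀)
    (w₁ : HasHighestWeight (fun i => ((N : ℤ) * lam 1 i : ℤ)) W₁)
    (w₂ : HasHighestWeight (fun i => ((N : ℤ) * lam 2 i : ℤ)) W₂)
    (h : HasInvariants (n := n) W₀ W₁ W₂) : HasInvariants (n := n) V₀ V₁ V₂ := by
  classical
  have hc : Fintype.card (ColT lam) ≤ 6 := by
    have h1 : Fintype.card (ColT lam) = ∑ s, ncol (lam s) := by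
      rw [Fintype.card_sigma]
      exact Finset.sum_congr rfl fun s _ => Fintype.card_fin _
    have h2 : (Fintype.card (ColT lam) : ℤ) ≤ 6 := by
      rw [h1, Fin.sum_univ_three]
      push_cast
      rw [ncol_eq hn (hl 0), ncol_eq hn (hl 1), ncol_eq hn (hl 2)]
      exact h6
    exact_mod_cast h2
  refine hasInvariants_of_coreU hn hl (fun l hlr hs => ?_) hN v₀ v₁ v₂ w₀ w₁ w₂ h
  exact gram_det_ne_zero hl (fun s => gK_orth (gword_root hlr) s) ΩK
    (K_eq_bot_of_even (hypT_few hc) _ (bCfg_good hlr) (bCfg_versal hn hlr) hs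
      (even_bCfg he hlr))

end Vale.Agent.P182.H158
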